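import Mathlib
import Vale.Agent.P333.Model
import Vale.Agent.P333.Bdl.B2
import Vale.Agent.P333.Bdl.B1

/-!
P333: a polynomial time `7/3`-approximation for the shortest common superstring problem, and the
lower bound `131/130` for the approximation ratio, as a gap reduction from bounded-occurrence
E3-LIN2.
-/

namespace Vale.Agent.Results.P333.Ratio73

open Vale.Agent.P333

theorem result :
    HasApprox (7 / 3) ∧
    (∀ ρ : ℝ, ρ < 131 / 130 →
      ∃ ε : ℝ, 0 < ε ∧ ε < 1 / 4 ∧ (HasApprox ρ → ∀ d : ℕ, GapDecidable ε d)) ∧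
    (∀ ε : ℝ, 0 < ε → ∀ d : ℕ, ∃ (t : ℕ) (f : List Eqn → List (List ℕ)), 0 < t ∧
      PolyTime systemW familyW f ∧ ∀ I, Bounded d I →
        |(opt (f I) : ℝ) - t * (130 * I.length + 2 * minViolated I)| ≤ ε * (t * I.length)) :=
  ⟨U.hasApprox_7_3_of U.rauzyBound,
    fun ρ hρ => approx_gap (fun ε hε k hk => exists_amp k hk ε hε) ρ hρ,
    fun ε hε d => reduction (fun ε hε k hk => exists_amp k hk ε hε) ε hε d⟩

end Vale.Agent.Results.P333.Ratio73
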